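import Mathlib

open Finset

namespace Vale.Agent.Lib.P033

variable {n : ℕ} [NeZero n]

/-- The window sum along an arithmetic progression. -/
def win (h : ZMod n → ℤ) (d : ZMod n) (t : ℕ) (x : ZMod n) : ℤ :=
  ∑ i ∈ range t, h (x + (i : ZMod n) * d)

lemma sq_of_sign {h : ZMod n → ℤ} (hh : ∀ j, h j = 1 ∨ h j = -1) (j : ZMod n) : h j * h j = 1 := by
  rcases hh j with e | e <;> rw [e] <;> norm_num

/-- Energy identity: the sum over all translates of the squared window sum equals `t * n`. -/
theorem energy {h : ZMod n → ℤ} (hh : ∀ j, h j = 1 ∨ h j = -1)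
    (hP : ∀ t : ZMod n, t ≠ 0 → ∑ j, h j * h (j + t) = 0) (d : ZMod n) (t : ℕ)
    (hd : ∀ i : ℕ, 0 < i → i < t → (i : ZMod n) * d ≠ 0) :
    ∑ x : ZMod n, win h d t x ^ 2 = (t : ℤ) * n := by
  have hne : ∀ i ∈ range t, ∀ i' ∈ range t, i ≠ i' →
      (i' : ZMod n) * d - (i : ZMod n) * d ≠ 0 := by
    intro i hi i' hi' hii
    have hi1 := mem_range.mp hi
    have hi2 := mem_range.mp hi'
    rcases lt_or_gt_of_ne hii with hlt | hlt
    · have := hd (i' - i) (by omega) (by omega)
      have e : ((i' - i : ℕ) : ZMod n) * d = (i' : ZMod n) * d - (i : ZMod n) * d := by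
        rw [Nat.cast_sub hlt.le]; ring
      rwa [e] at this
    · have := hd (i - i') (by omega) (by omega)
      have e : ((i - i' : ℕ) : ZMod n) * d = -((i' : ZMod n) * d - (i : ZMod n) * d) := by
        rw [Nat.cast_sub hlt.le]; ring
      rw [e] at this
      exact fun h0 => this (by rw [h0, neg_zero])
  have hterm : ∀ i ∈ range t, ∀ i' ∈ range t,
      ∑ x : ZMod n, h (x + (i : ZMod n) * d) * h (x + (i' : ZMod n) * d) =
        if i = i' then (n : ℤ) else 0 := by
    intro i hi i' hi'
    by_cases hii : i = i'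
    · subst hii
      rw [if_pos rfl]
      have : ∀ x : ZMod n, h (x + (i : ZMod n) * d) * h (x + (i : ZMod n) * d) = 1 :=
        fun x => sq_of_sign hh _
      simp only [this]
      simp [ZMod.card]
    · rw [if_neg hii]
      have h0 := hP _ (hne i hi i' hi' hii)
      rw [← h0]
      refine Fintype.sum_equiv (Equiv.addRight ((i : ZMod n) * d)) _ _ ?_
      intro x
      simp only [Equiv.coe_addRight]
      congr 2
      ring
  calc ∑ x : ZMod n, win h d t x ^ 2
      = ∑ x : ZMod n, ∑ i ∈ range t, ∑ i' ∈ range t,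
          h (x + (i : ZMod n) * d) * h (x + (i' : ZMod n) * d) := by
        apply Finset.sum_congr rfl
        intro x _
        rw [win, sq, Finset.sum_mul_sum]
    _ = ∑ i ∈ range t, ∑ i' ∈ range t, ∑ x : ZMod n,
          h (x + (i : ZMod n) * d) * h (x + (i' : ZMod n) * d) := by
        rw [Finset.sum_comm]
        apply Finset.sum_congr rfl
        intro i _
        rw [Finset.sum_comm]
    _ = ∑ i ∈ range t, ∑ i' ∈ range t, (if i = i' then (n : ℤ) else 0) := by
        apply Finset.sum_congr rfl
        intro i hi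
        apply Finset.sum_congr rfl
        intro i' hi'
        exact hterm i hi i' hi'
    _ = (t : ℤ) * n := by
        have : ∀ i ∈ range t, ∑ i' ∈ range t, (if i = i' then (n : ℤ) else 0) = n := by
          intro i hi
          rw [Finset.sum_ite_eq (range t) i]
          simp [hi]
        rw [Finset.sum_congr rfl this]
        simp

/-- Consecutive windows differ by at most 2. -/
lemma win_step {h : ZMod n → ℤ} (hh : ∀ j, h j = 1 ∨ h j = -1) (d : ZMod n) (t : ℕ) (x : ZMod n) :
    |win h d t (x + d) - win h d t x| ≤ 2 := by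
  have e : win h d t (x + d) - win h d t x =
      h (x + (t : ZMod n) * d) - h x := by
    unfold win
    have e1 : ∑ i ∈ range t, h (x + d + (i : ZMod n) * d) =
        ∑ i ∈ range t, h (x + ((i + 1 : ℕ) : ZMod n) * d) := by
      apply Finset.sum_congr rfl
      intro i _
      congr 1
      push_cast
      ring
    rw [e1]
    have e2 := Finset.sum_range_succ (fun i : ℕ => h (x + (i : ZMod n) * d)) t
    have e3 := Finset.sum_range_succ' (fun i : ℕ => h (x + (i : ZMod n) * d)) t
    simp only [Nat.cast_zero, zero_mul, add_zero] at e3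
    linarith
  rw [e, abs_le]
  rcases hh (x + (t : ZMod n) * d) with a | a <;> rcases hh x with b | b <;> rw [a, b] <;> norm_num

/-- Lipschitz bound along the progression. -/
lemma win_lip {h : ZMod n → ℤ} (hh : ∀ j, h j = 1 ∨ h j = -1) (d : ZMod n) (t : ℕ) (x : ZMod n)
    (m : ℕ) : |win h d t (x + (m : ZMod n) * d) - win h d t x| ≤ 2 * m := by
  induction m with
  | zero => simp
  | succ m ih =>
    have e : x + ((m + 1 : ℕ) : ZMod n) * d = (x + (m : ZMod n) * d) + d := by
      push_cast; ring
    rw [e]
    have h1 := win_step hh d t (x + (m : ZMod n) * d)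
    have := abs_add_le (win h d t (x + (m : ZMod n) * d + d) - win h d t (x + (m : ZMod n) * d))
      (win h d t (x + (m : ZMod n) * d) - win h d t x)
    rw [sub_add_sub_cancel] at this
    push_cast
    linarith

end Vale.Agent.Lib.P033
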