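import Vale.Agent.Lib.P033.Energy

open Finset

namespace Vale.Agent.Lib.P033

variable {n : ℕ} [NeZero n]

/-- Squares summed over an injective family of translates are bounded by the total energy. -/
lemma sum_sq_le_energy {h : ZMod n → ℤ} (d : ZMod n) (t M : ℕ) (x : ℕ → ZMod n)
    (hinj : ∀ i < M, ∀ j < M, x i = x j → i = j) :
    ∑ j ∈ range M, win h d t (x j) ^ 2 ≤ ∑ y : ZMod n, win h d t y ^ 2 := by
  have hI : Set.InjOn x (range M : Set ℕ) := by
    intro i hi j hj hij
    exact hinj i (mem_range.mp (mem_coe.mp hi)) j (mem_range.mp (mem_coe.mp hj)) hij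
  calc ∑ j ∈ range M, win h d t (x j) ^ 2
      = ∑ y ∈ (range M).image x, win h d t y ^ 2 := by
        rw [sum_image hI]
    _ ≤ ∑ y : ZMod n, win h d t y ^ 2 :=
        sum_le_sum_of_subset_of_nonneg (subset_univ _) (fun _ _ _ => sq_nonneg _)

/-- Injectivity of a progression. -/
lemma prog_inj (a d : ZMod n) (M : ℕ) (hd : ∀ i : ℕ, 0 < i → i < M → (i : ZMod n) * d ≠ 0) :
    ∀ i < M, ∀ j < M, a + (i : ZMod n) * d = a + (j : ZMod n) * d → i = j := by
  intro i hi j hj hij
  by_contra hne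
  rcases lt_or_gt_of_ne hne with hlt | hlt
  · have := hd (j - i) (by omega) (by omega)
    apply this
    rw [Nat.cast_sub hlt.le]
    have h2 : (j : ZMod n) * d = (i : ZMod n) * d := (add_left_cancel hij).symm
    rw [sub_mul, h2, sub_self]
  · have := hd (i - j) (by omega) (by omega)
    apply this
    rw [Nat.cast_sub hlt.le]
    have h2 : (i : ZMod n) * d = (j : ZMod n) * d := add_left_cancel hij
    rw [sub_mul, h2, sub_self]

lemma sum_sq_first (A : ℕ) :
    6 * ∑ j ∈ range A, ((j : ℤ) + 1) ^ 2 = (A : ℤ) * (A + 1) * (2 * A + 1) := by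
  induction A with
  | zero => simp
  | succ A ih =>
    rw [sum_range_succ, mul_add, ih]
    push_cast
    ring

/-- The run bound for a sign sequence normalized to be `1` on the progression. -/
lemma run_core {h : ZMod n → ℤ} (hh : ∀ j, h j = 1 ∨ h j = -1)
    (hP : ∀ t : ZMod n, t ≠ 0 → ∑ j, h j * h (j + t) = 0) (a d : ZMod n) (L s : ℕ)
    (hd : ∀ i : ℕ, 0 < i → i < L → (i : ZMod n) * d ≠ 0)
    (hrun : ∀ i < L, h (a + (i : ZMod n) * d) = 1) (hs1 : 1 ≤ s) (hs2 : 2 * s ≤ L) :
    6 * (s : ℤ) * L - 8 * (s : ℤ) ^ 2 + 2 ≤ 3 * n := by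
  set t := 2 * s with ht
  obtain ⟨A, hA⟩ : ∃ A, s = A + 1 := ⟨s - 1, by omega⟩
  obtain ⟨B, hB⟩ : ∃ B, L = 2 * s + B := ⟨L - 2 * s, by omega⟩
  -- positions of windows: window number j starts at a' + j d, a' = a - A d
  set a' : ZMod n := a - (A : ZMod n) * d with ha'
  set x : ℕ → ZMod n := fun j => a' + (j : ZMod n) * d with hx
  have hdM : ∀ i : ℕ, 0 < i → i < A + (B + 1) + A → (i : ZMod n) * d ≠ 0 :=
    fun i h0 hi => hd i h0 (by omega)
  have hinj := prog_inj a' d (A + (B + 1) + A) hdM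
  have hen := energy hh hP d t (fun i h0 hi => hd i h0 (by omega))
  have hle := sum_sq_le_energy (h := h) d t (A + (B + 1) + A) x (fun i hi j hj hij => hinj i hi j hj hij)
  rw [hen] at hle
  have htz : ((t : ℕ) : ℤ) = 2 * ((A : ℤ) + 1) := by
    rw [ht, hA]; push_cast; ring
  -- full windows: A ≤ j ≤ A + B
  have hfull : ∀ j, j ≤ B → win h d t (x (A + j)) = t := by
    intro j hj
    unfold win
    have : ∀ i ∈ range t, h (x (A + j) + (i : ZMod n) * d) = 1 := by
      intro i hi
      have hi' := mem_range.mp hi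
      have e : x (A + j) + (i : ZMod n) * d = a + ((j + i : ℕ) : ZMod n) * d := by
        simp only [hx, ha']
        push_cast
        ring
      rw [e]
      exact hrun _ (by omega)
    rw [sum_congr rfl this]
    simp
  -- lower bounds by the Lipschitz property
  have hleft : ∀ j, j < A → (2 * ((j : ℤ) + 1)) ^ 2 ≤ win h d t (x j) ^ 2 := by
    intro j hj
    have e : x A = x j + ((A - j : ℕ) : ZMod n) * d := by
      simp only [hx]
      rw [Nat.cast_sub hj.le]
      ring
    have h1 := win_lip hh d t (x j) (A - j)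
    rw [← e] at h1
    have h2 := hfull 0 (by omega)
    rw [add_zero] at h2
    rw [h2] at h1
    have h4 := (abs_le.mp h1).2
    push_cast [Nat.cast_sub hj.le] at h4
    have hw : (2 * ((j : ℤ) + 1)) ≤ win h d t (x j) := by
      rw [htz] at h4
      linarith
    have hpos : 0 ≤ (2 * ((j : ℤ) + 1)) := by positivity
    exact pow_le_pow_left₀ hpos hw 2
  have hright : ∀ j, j < A → (2 * ((A : ℤ) - j)) ^ 2 ≤ win h d t (x (A + (B + 1) + j)) ^ 2 := by
    intro j hj
    have e : x (A + (B + 1) + j) = x (A + B) + ((j + 1 : ℕ) : ZMod n) * d := by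
      simp only [hx]
      push_cast
      ring
    have h1 := win_lip hh d t (x (A + B)) (j + 1)
    rw [← e] at h1
    have h2 := hfull B le_rfl
    rw [h2] at h1
    have h3 := (abs_le.mp h1).1
    push_cast at h3
    have hw : (2 * ((A : ℤ) - j)) ≤ win h d t (x (A + (B + 1) + j)) := by
      rw [htz] at h3
      linarith
    have hpos : 0 ≤ (2 * ((A : ℤ) - j)) := by
      have : (j : ℤ) < A := by exact_mod_cast hj
      linarith
    exact pow_le_pow_left₀ hpos hw 2
  have hsplit : ∑ j ∈ range (A + (B + 1) + A), win h d t (x j) ^ 2 =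
      ∑ j ∈ range A, win h d t (x j) ^ 2 + ∑ j ∈ range (B + 1), win h d t (x (A + j)) ^ 2 +
        ∑ j ∈ range A, win h d t (x (A + (B + 1) + j)) ^ 2 := by
    rw [Finset.sum_range_add, Finset.sum_range_add]
  have hmid : ∑ j ∈ range (B + 1), win h d t (x (A + j)) ^ 2 = ((B : ℤ) + 1) * (t : ℤ) ^ 2 := by
    have : ∀ j ∈ range (B + 1), win h d t (x (A + j)) ^ 2 = (t : ℤ) ^ 2 := by
      intro j hj
      rw [hfull j (by have := mem_range.mp hj; omega)]
    rw [sum_congr rfl this]
    simp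
  have hS1 : ∑ j ∈ range A, (2 * ((j : ℤ) + 1)) ^ 2 ≤ ∑ j ∈ range A, win h d t (x j) ^ 2 :=
    sum_le_sum fun j hj => hleft j (mem_range.mp hj)
  have hS3 : ∑ j ∈ range A, (2 * ((A : ℤ) - j)) ^ 2 ≤
      ∑ j ∈ range A, win h d t (x (A + (B + 1) + j)) ^ 2 :=
    sum_le_sum fun j hj => hright j (mem_range.mp hj)
  have hreflect : ∑ j ∈ range A, (2 * ((A : ℤ) - j)) ^ 2 = ∑ j ∈ range A, (2 * ((j : ℤ) + 1)) ^ 2 := by
    rw [← Finset.sum_range_reflect]
    apply sum_congr rfl
    intro j hj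
    have hj' := mem_range.mp hj
    have e : ((A - 1 - j : ℕ) : ℤ) = (A : ℤ) - 1 - j := by
      have : 1 + j ≤ A := by omega
      omega
    rw [e]
    ring
  have hsum : ∑ j ∈ range A, (2 * ((j : ℤ) + 1)) ^ 2 = 4 * ∑ j ∈ range A, ((j : ℤ) + 1) ^ 2 := by
    rw [mul_sum]
    apply sum_congr rfl
    intro j _
    ring
  have h6 := sum_sq_first A
  have hfinal : 8 * ∑ j ∈ range A, ((j : ℤ) + 1) ^ 2 + ((B : ℤ) + 1) * (t : ℤ) ^ 2 ≤ (t : ℤ) * n := by
    rw [hsplit, hmid] at hle
    rw [hreflect, hsum] at hS3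
    rw [hsum] at hS1
    linarith
  rw [htz] at hfinal
  -- divide by 4 (A + 1)
  have hApos : (0 : ℤ) < (A : ℤ) + 1 := by positivity
  have key : 4 * ((A : ℤ) + 1) * (2 * (A : ℤ) * (2 * A + 1) + 6 * ((B : ℤ) + 1) * (A + 1)) ≤
      4 * ((A : ℤ) + 1) * (3 * n) := by
    nlinarith [hfinal, h6]
  have key2 := le_of_mul_le_mul_left key (by positivity)
  rw [hB, hA]
  push_cast
  nlinarith [key2]

/-- Runs along an arithmetic progression in the first row of a circulant Hadamard matrix. -/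
theorem run_bound {h : ZMod n → ℤ} (hh : ∀ j, h j = 1 ∨ h j = -1)
    (hP : ∀ t : ZMod n, t ≠ 0 → ∑ j, h j * h (j + t) = 0) (a d : ZMod n) (L : ℕ)
    (hd : ∀ i : ℕ, 0 < i → i < L → (i : ZMod n) * d ≠ 0)
    (hrun : ∀ i < L, h (a + (i : ZMod n) * d) = h a) :
    3 * L ^ 2 ≤ 8 * n := by
  have hn : 1 ≤ n := Nat.pos_of_ne_zero (NeZero.ne n)
  by_cases hL : L ≤ 1
  · interval_cases L <;> omega
  push Not at hL
  -- normalize
  set c : ℤ := h a with hc
  have hcc : c * c = 1 := sq_of_sign hh a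
  set h' : ZMod n → ℤ := fun j => c * h j with hh'
  have hh'1 : ∀ j, h' j = 1 ∨ h' j = -1 := by
    intro j
    rcases hh a with e | e <;> rcases hh j with f | f <;> simp [hh', hc, e, f]
  have hP' : ∀ t : ZMod n, t ≠ 0 → ∑ j, h' j * h' (j + t) = 0 := by
    intro t ht
    have : ∀ j, h' j * h' (j + t) = h j * h (j + t) := by
      intro j
      simp only [hh']
      calc c * h j * (c * h (j + t)) = (c * c) * (h j * h (j + t)) := by ring
        _ = _ := by rw [hcc, one_mul]
    simp only [this]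
    exact hP t ht
  have hrun' : ∀ i < L, h' (a + (i : ZMod n) * d) = 1 := by
    intro i hi
    simp only [hh']
    rw [hrun i hi]
    exact hcc
  set s : ℕ := (3 * L + 4) / 8 with hs
  have hs1 : 1 ≤ s := by omega
  have hs2 : 2 * s ≤ L := by omega
  have hcore := run_core hh'1 hP' a d L s hd hrun' hs1 hs2
  have he1 : (3 * (L : ℤ) - 4) ≤ 8 * s := by omega
  have he2 : 8 * (s : ℤ) ≤ 3 * L + 4 := by omega
  have hq : ((8 * (s : ℤ) - 3 * L) - 4) * ((8 * (s : ℤ) - 3 * L) + 4) ≤ 0 := by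
    apply mul_nonpos_of_nonpos_of_nonneg <;> linarith
  have hfin : 3 * (L : ℤ) ^ 2 ≤ 8 * n := by nlinarith [hq, hcore]
  exact_mod_cast hfin

/-- Discrepancy along an arithmetic progression. -/
theorem disc_bound {h : ZMod n → ℤ} (hh : ∀ j, h j = 1 ∨ h j = -1)
    (hP : ∀ t : ZMod n, t ≠ 0 → ∑ j, h j * h (j + t) = 0) (a d : ZMod n) (t : ℕ)
    (hd : ∀ i : ℕ, 0 < i → i < t → (i : ZMod n) * d ≠ 0) :
    |win h d t a| ^ 3 + 2 * |win h d t a| ≤ 3 * (t : ℤ) * n := by
  set W : ℤ := |win h d t a| with hW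
  have hW0 : 0 ≤ W := abs_nonneg _
  have hWt : W ≤ t := by
    rw [hW]
    unfold win
    calc |∑ i ∈ range t, h (a + (i : ZMod n) * d)|
        ≤ ∑ i ∈ range t, |h (a + (i : ZMod n) * d)| := abs_sum_le_sum_abs _ _
      _ = ∑ i ∈ range t, (1 : ℤ) := by
          apply sum_congr rfl
          intro i _
          rcases hh (a + (i : ZMod n) * d) with e | e <;> rw [e] <;> norm_num
      _ = t := by simp
  by_cases hzero : W = 0
  · rw [hzero]
    have : (0 : ℤ) ≤ 3 * (t : ℤ) * n := by positivity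
    simpa using this
  have hWpos : 1 ≤ W := by omega
  -- m is the largest integer with W - 2 m > 0
  obtain ⟨m, hm⟩ : ∃ m : ℕ, (m : ℤ) = (W - 1) / 2 := ⟨((W - 1) / 2).toNat, by
    rw [Int.toNat_of_nonneg]; omega⟩
  have hm1 : 2 * (m : ℤ) + 1 ≤ W := by omega
  have hm2 : W ≤ 2 * (m : ℤ) + 2 := by omega
  have hmt : 2 * m + 1 ≤ t := by
    have : (2 * (m : ℤ) + 1) ≤ t := by linarith
    exact_mod_cast this
  set a' : ZMod n := a - (m : ZMod n) * d with ha'
  set x : ℕ → ZMod n := fun j => a' + (j : ZMod n) * d with hx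
  have hinj := prog_inj a' d (m + 1 + m) (fun i h0 hi => hd i h0 (by omega))
  have hen := energy hh hP d t hd
  have hle := sum_sq_le_energy (h := h) d t (m + 1 + m) x (fun i hi j hj hij => hinj i hi j hj hij)
  rw [hen] at hle
  have hxm : x m = a := by
    simp only [hx, ha']
    ring
  have habs : ∀ j, |win h d t (x j) - win h d t a| ≤ 2 * |(j : ℤ) - m| → W - 2 * |(j : ℤ) - m| ≤ |win h d t (x j)| := by
    intro j hj
    have := abs_sub_abs_le_abs_sub (win h d t a) (win h d t (x j))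
    rw [abs_sub_comm (win h d t a)] at this
    rw [hW]
    linarith
  have hnear : ∀ j, |win h d t (x j) - win h d t a| ≤ 2 * |(j : ℤ) - m| := by
    intro j
    rcases le_total j m with hjm | hjm
    · have e : a = x j + ((m - j : ℕ) : ZMod n) * d := by
        rw [← hxm]
        simp only [hx]
        rw [Nat.cast_sub hjm]
        ring
      have h1 := win_lip hh d t (x j) (m - j)
      rw [← e] at h1
      rw [abs_sub_comm]
      have e2 : |(j : ℤ) - m| = ((m - j : ℕ) : ℤ) := by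
        rw [abs_of_nonpos (by omega)]
        omega
      rw [e2]
      exact h1
    · have e : x j = a + ((j - m : ℕ) : ZMod n) * d := by
        rw [← hxm]
        simp only [hx]
        rw [Nat.cast_sub hjm]
        ring
      have h1 := win_lip hh d t a (j - m)
      rw [← e] at h1
      have e2 : |(j : ℤ) - m| = ((j - m : ℕ) : ℤ) := by
        rw [abs_of_nonneg (by omega)]
        omega
      rw [e2]
      exact h1
  have hsq : ∀ j ∈ range (m + 1 + m), (W - 2 * |(j : ℤ) - m|) ^ 2 ≤ win h d t (x j) ^ 2 := by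
    intro j hj
    have hj' := mem_range.mp hj
    have h0 : 0 ≤ W - 2 * |(j : ℤ) - m| := by
      have : |(j : ℤ) - m| ≤ m := by
        rw [abs_le]
        constructor <;> omega
      linarith
    have h1 := habs j (hnear j)
    calc (W - 2 * |(j : ℤ) - m|) ^ 2 ≤ |win h d t (x j)| ^ 2 := pow_le_pow_left₀ h0 h1 2
      _ = win h d t (x j) ^ 2 := sq_abs _
  have hS := sum_le_sum hsq
  -- closed form of the sum
  have hclosed : ∀ M : ℕ, 3 * ∑ j ∈ range (M + 1 + M), (W - 2 * |(j : ℤ) - M|) ^ 2 =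
      3 * W ^ 2 * (2 * M + 1) - 12 * W * M * (M + 1) + 4 * M * (M + 1) * (2 * M + 1) := by
    intro M
    induction M with
    | zero => simp
    | succ M ih =>
      have e1 : M + 1 + 1 + (M + 1) = (M + 1 + M + 1) + 1 := by ring
      rw [e1, sum_range_succ, Finset.sum_range_succ']
      have e2 : ∀ j ∈ range (M + 1 + M), (W - 2 * |((j + 1 : ℕ) : ℤ) - ((M + 1 : ℕ) : ℤ)|) ^ 2 =
          (W - 2 * |(j : ℤ) - M|) ^ 2 := by
        intro j _
        congr 3
        push_cast
        ring_nf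
      rw [sum_congr rfl e2]
      have e3 : |((0 : ℕ) : ℤ) - ((M + 1 : ℕ) : ℤ)| = (M : ℤ) + 1 := by
        push_cast
        rw [abs_of_nonpos (by omega)]
        ring
      have e4 : |((M + 1 + M + 1 : ℕ) : ℤ) - ((M + 1 : ℕ) : ℤ)| = (M : ℤ) + 1 := by
        push_cast
        rw [abs_of_nonneg (by omega)]
        ring
      rw [e3, e4, mul_add, mul_add, ih]
      push_cast
      ring
  have hC := hclosed m
  rcases (show W = 2 * (m : ℤ) + 1 ∨ W = 2 * (m : ℤ) + 2 by omega) with hcase | hcase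
  · have : W ^ 3 + 2 * W = 3 * W ^ 2 * (2 * m + 1) - 12 * W * m * (m + 1) + 4 * m * (m + 1) * (2 * m + 1) := by
      rw [hcase]; ring
    rw [this, ← hC]
    linarith
  · have : W ^ 3 + 2 * W = 3 * W ^ 2 * (2 * m + 1) - 12 * W * m * (m + 1) + 4 * m * (m + 1) * (2 * m + 1) := by
      rw [hcase]; ring
    rw [this, ← hC]
    linarith

end Vale.Agent.Lib.P033
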