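import Vale.Agent.Lib.P033.Runs

open Finset

namespace Vale.Agent.Lib.P033

variable {n : ℕ} [NeZero n]

/-- Weighted energy identity for the rows of a circulant Hadamard matrix. -/
theorem energy_weighted {h : ZMod n → ℝ} (hh : ∀ j, h j * h j = 1)
    (hP : ∀ t : ZMod n, t ≠ 0 → ∑ j, h j * h (j + t) = 0) (d : ZMod n) (L : ℕ)
    (hd : ∀ i : ℕ, 0 < i → i < L → (i : ZMod n) * d ≠ 0) (g : ℕ → ℝ) :
    ∑ x : ZMod n, (∑ i ∈ range L, g i * h (x + (i : ZMod n) * d)) ^ 2 =
      n * ∑ i ∈ range L, g i ^ 2 := by
  have hne : ∀ i ∈ range L, ∀ i' ∈ range L, i ≠ i' →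
      (i' : ZMod n) * d - (i : ZMod n) * d ≠ 0 := by
    intro i hi i' hi' hii
    have hi1 := mem_range.mp hi
    have hi2 := mem_range.mp hi'
    rcases lt_or_gt_of_ne hii with hlt | hlt
    · have := hd (i' - i) (by omega) (by omega)
      have e : ((i' - i : ℕ) : ZMod n) * d = (i' : ZMod n) * d - (i : ZMod n) * d := by
        rw [Nat.cast_sub hlt.le]; ring
      rwa [e] at this
    · have := hd (i - i') (by omega) (by omega)
      have e : ((i - i' : ℕ) : ZMod n) * d = -((i' : ZMod n) * d - (i : ZMod n) * d) := by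
        rw [Nat.cast_sub hlt.le]; ring
      rw [e] at this
      exact fun h0 => this (by rw [h0, neg_zero])
  have hterm : ∀ i ∈ range L, ∀ i' ∈ range L,
      ∑ x : ZMod n, h (x + (i : ZMod n) * d) * h (x + (i' : ZMod n) * d) =
        if i = i' then (n : ℝ) else 0 := by
    intro i hi i' hi'
    by_cases hii : i = i'
    · subst hii
      rw [if_pos rfl]
      have : ∀ x : ZMod n, h (x + (i : ZMod n) * d) * h (x + (i : ZMod n) * d) = 1 :=
        fun x => hh _
      simp only [this]
      simp [ZMod.card]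
    · rw [if_neg hii]
      have h0 := hP _ (hne i hi i' hi' hii)
      rw [← h0]
      refine Fintype.sum_equiv (Equiv.addRight ((i : ZMod n) * d)) _ _ ?_
      intro x
      simp only [Equiv.coe_addRight]
      congr 2
      ring
  calc ∑ x : ZMod n, (∑ i ∈ range L, g i * h (x + (i : ZMod n) * d)) ^ 2
      = ∑ x : ZMod n, ∑ i ∈ range L, ∑ i' ∈ range L,
          (g i * g i') * (h (x + (i : ZMod n) * d) * h (x + (i' : ZMod n) * d)) := by
        apply Finset.sum_congr rfl
        intro x _
        rw [sq, Finset.sum_mul_sum]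
        apply Finset.sum_congr rfl
        intro i _
        apply Finset.sum_congr rfl
        intro i' _
        ring
    _ = ∑ i ∈ range L, ∑ i' ∈ range L, (g i * g i') * ∑ x : ZMod n,
          (h (x + (i : ZMod n) * d) * h (x + (i' : ZMod n) * d)) := by
        rw [Finset.sum_comm]
        apply Finset.sum_congr rfl
        intro i _
        rw [Finset.sum_comm]
        apply Finset.sum_congr rfl
        intro i' _
        rw [Finset.mul_sum]
    _ = ∑ i ∈ range L, ∑ i' ∈ range L, (g i * g i') * (if i = i' then (n : ℝ) else 0) := by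
        apply Finset.sum_congr rfl
        intro i hi
        apply Finset.sum_congr rfl
        intro i' hi'
        rw [hterm i hi i' hi']
    _ = n * ∑ i ∈ range L, g i ^ 2 := by
        rw [Finset.mul_sum]
        apply Finset.sum_congr rfl
        intro i hi
        have : ∀ i' ∈ range L, (g i * g i') * (if i = i' then (n : ℝ) else 0) =
            if i = i' then (g i * g i') * (n : ℝ) else 0 := by
          intro i' _
          split_ifs <;> simp
        rw [Finset.sum_congr rfl this, Finset.sum_ite_eq (range L) i]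
        simp only [hi, if_true]
        ring

/-- Partial sums of the sine weights. -/
lemma sum_sin_odd (a : ℝ) (k : ℕ) :
    (∑ i ∈ range k, Real.sin ((2 * (i : ℝ) + 1) * a)) * Real.sin a = Real.sin (k * a) ^ 2 := by
  induction k with
  | zero => simp
  | succ k ih =>
    rw [sum_range_succ, add_mul, ih]
    have e1 : ((k + 1 : ℕ) : ℝ) * a = k * a + a := by push_cast; ring
    have e2 : (2 * (k : ℝ) + 1) * a = k * a + (k * a + a) := by ring
    rw [e1, e2, Real.sin_add (k * a) (k * a + a), Real.sin_add (k * a) a,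
      Real.cos_add (k * a) a]
    nlinarith [Real.sin_sq_add_cos_sq (k * a), Real.sin_sq_add_cos_sq a]

/-- The average of a squared sine over `L` equally spaced points. -/
lemma sum_sin_sq (c : ℝ) (L : ℕ) (hL : 2 ≤ L) :
    ∑ j ∈ range L, Real.sin (c + Real.pi * j / L) ^ 2 = L / 2 := by
  have hL0 : (0 : ℝ) < L := by positivity
  have hL2 : (2 : ℝ) ≤ L := by exact_mod_cast hL
  set b : ℝ := Real.pi / L with hb
  have hbpos : 0 < b := div_pos Real.pi_pos hL0
  have hblt : b < Real.pi := by
    rw [hb, div_lt_iff₀ hL0]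
    nlinarith [Real.pi_pos]
  have hsinb : Real.sin b ≠ 0 := (Real.sin_pos_of_pos_of_lt_pi hbpos hblt).ne'
  have htel : ∀ m : ℕ, (∑ j ∈ range m, Real.cos (2 * c + 2 * (j * b))) * (2 * Real.sin b) =
      Real.sin (2 * c + 2 * (m * b) - b) - Real.sin (2 * c - b) := by
    intro m
    induction m with
    | zero => simp
    | succ m ih =>
      rw [sum_range_succ, add_mul, ih]
      have e1 : 2 * c + 2 * (((m + 1 : ℕ) : ℝ) * b) - b = (2 * c + 2 * (m * b)) + b := by
        push_cast; ring
      have e2 : 2 * c + 2 * ((m : ℝ) * b) - b = (2 * c + 2 * (m * b)) - b := rfl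
      rw [e1, e2, Real.sin_add, Real.sin_sub]
      ring
  have hzero : ∑ j ∈ range L, Real.cos (2 * c + 2 * (j * b)) = 0 := by
    have h1 := htel L
    have h2 : 2 * c + 2 * ((L : ℝ) * b) - b = (2 * c - b) + 2 * Real.pi := by
      have : (L : ℝ) * b = Real.pi := by
        rw [hb]; field_simp
      rw [this]; ring
    rw [h2, Real.sin_add_two_pi, sub_self] at h1
    have h3 : (2 * Real.sin b) ≠ 0 := mul_ne_zero two_ne_zero hsinb
    exact (mul_eq_zero.mp h1).resolve_right h3
  have hterm : ∀ j ∈ range L, Real.sin (c + Real.pi * j / L) ^ 2 =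
      1 / 2 - Real.cos (2 * c + 2 * (j * b)) / 2 := by
    intro j _
    have e : 2 * c + 2 * ((j : ℝ) * b) = 2 * (c + Real.pi * j / L) := by
      rw [hb]; ring
    rw [e, Real.cos_two_mul]
    nlinarith [Real.sin_sq_add_cos_sq (c + Real.pi * j / L)]
  rw [sum_congr rfl hterm, Finset.sum_sub_distrib, Finset.sum_const, card_range, ← Finset.sum_div,
    hzero]
  simp
  ring

/-- The sharp run inequality, normalized so that the row equals `1` on the progression. -/
theorem sine_run_core {h : ZMod n → ℝ} (hh : ∀ j, h j = 1 ∨ h j = -1)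
    (hP : ∀ t : ZMod n, t ≠ 0 → ∑ j, h j * h (j + t) = 0) (a d : ZMod n) (L : ℕ) (hL : 2 ≤ L)
    (hd : ∀ i : ℕ, 0 < i → i < L → (i : ZMod n) * d ≠ 0)
    (hrun : ∀ i < L, h (a + (i : ZMod n) * d) = 1) :
    1 ≤ (n : ℝ) * Real.sin (Real.pi / (2 * L)) ^ 2 := by
  have hL0 : (0 : ℝ) < L := by positivity
  have hL2 : (2 : ℝ) ≤ L := by exact_mod_cast hL
  set A : ℝ := Real.pi / (2 * L) with hA
  have hApos : 0 < A := by positivity
  have hLA : (L : ℝ) * A = Real.pi / 2 := by
    rw [hA]; field_simp
  have hAlt : A < Real.pi := by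
    have : A ≤ Real.pi / 4 := by
      rw [hA]
      apply div_le_div_of_nonneg_left Real.pi_pos.le (by positivity)
      linarith
    linarith [Real.pi_pos]
  set S : ℝ := Real.sin A with hS
  have hSpos : 0 < S := Real.sin_pos_of_pos_of_lt_pi hApos hAlt
  set g : ℕ → ℝ := fun i => Real.sin ((2 * (i : ℝ) + 1) * A) with hg
  have hgnn : ∀ i < L, 0 ≤ g i := by
    intro i hi
    apply Real.sin_nonneg_of_nonneg_of_le_pi (by positivity)
    have hi' : (2 * (i : ℝ) + 1) ≤ 2 * L := by
      have : ((i : ℝ) + 1) ≤ L := by exact_mod_cast hi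
      linarith
    calc (2 * (i : ℝ) + 1) * A ≤ (2 * L) * A := mul_le_mul_of_nonneg_right hi' hApos.le
      _ = Real.pi := by linarith
  set G : ℕ → ℝ := fun k => ∑ i ∈ range k, g i with hG
  have hGS : ∀ k, G k * S = Real.sin (k * A) ^ 2 := fun k => sum_sin_odd A k
  have hGL : G L * S = 1 := by
    rw [hGS, hLA, Real.sin_pi_div_two]; norm_num
  -- the rows
  set m : ℕ := (L - 1) / 2 with hm
  set r : ℕ → ZMod n := fun j => (a - (m : ZMod n) * d) + (j : ZMod n) * d with hr
  set v : ℕ → ℝ := fun j => ∑ i ∈ range L, g i * h (r j + (i : ZMod n) * d) with hv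
  have hterm_lower : ∀ i < L, ∀ y : ZMod n, - g i ≤ g i * h y := by
    intro i hi y
    have h0 := hgnn i hi
    rcases hh y with e | e <;> rw [e] <;> linarith
  have hdmain : ∀ j < L, Real.cos (Real.pi * ((j : ℝ) - m) / L) ≤ v j * S := by
    intro j hj
    rcases le_or_gt m j with hjm | hjm
    · -- nonnegative offset
      obtain ⟨x, rfl⟩ : ∃ x, j = m + x := ⟨j - m, by omega⟩
      have hxL : x ≤ L := by omega
      have hsplit : v (m + x) ≥ G (L - x) - (G L - G (L - x)) := by
        have e1 : range L = range (L - x) ∪ (Finset.Ico (L - x) L) := by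
          ext i
          simp only [mem_union, mem_range, mem_Ico]
          omega
        have hdisj : Disjoint (range (L - x)) (Finset.Ico (L - x) L) := by
          rw [Finset.disjoint_left]
          intro i hi hi2
          have := mem_range.mp hi
          have := (mem_Ico.mp hi2).1
          omega
        simp only [hv]
        rw [e1, Finset.sum_union hdisj]
        have p1 : ∑ i ∈ range (L - x), g i * h (r (m + x) + (i : ZMod n) * d) = G (L - x) := by
          apply Finset.sum_congr rfl
          intro i hi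
          have hi' := mem_range.mp hi
          have e : r (m + x) + (i : ZMod n) * d = a + ((x + i : ℕ) : ZMod n) * d := by
            simp only [hr]
            push_cast
            ring
          rw [e, hrun _ (by omega), mul_one]
        have p2 : ∑ i ∈ Finset.Ico (L - x) L, g i * h (r (m + x) + (i : ZMod n) * d) ≥
            - (G L - G (L - x)) := by
          have e2 : G L - G (L - x) = ∑ i ∈ Finset.Ico (L - x) L, g i := by
            simp only [hG]
            rw [Finset.sum_Ico_eq_sub _ (by omega)]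
          rw [e2, ← Finset.sum_neg_distrib]
          apply Finset.sum_le_sum
          intro i hi
          exact hterm_lower i (mem_Ico.mp hi).2 _
        linarith
      have hval : (G (L - x) - (G L - G (L - x))) * S = Real.cos (Real.pi * (((m + x : ℕ) : ℝ) - m) / L) := by
        have e3 : (((L - x : ℕ) : ℝ)) * A = Real.pi / 2 - x * A := by
          rw [Nat.cast_sub hxL, sub_mul, hLA]
        have e4 : Real.pi * (((m + x : ℕ) : ℝ) - m) / L = 2 * (x * A) := by
          rw [hA]; push_cast; field_simp; ring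
        have hG1 := hGS (L - x)
        rw [e3, Real.sin_pi_div_two_sub] at hG1
        rw [e4, Real.cos_two_mul]
        have hG2 := hGL
        nlinarith [hG1, hG2]
      rw [← hval]
      exact mul_le_mul_of_nonneg_right hsplit hSpos.le
    · -- negative offset
      obtain ⟨e, he⟩ : ∃ e, m = j + e := ⟨m - j, by omega⟩
      have heL : e ≤ L := by omega
      have hsplit : v j ≥ (G L - G e) - G e := by
        have e1 : range L = range e ∪ (Finset.Ico e L) := by
          ext i
          simp only [mem_union, mem_range, mem_Ico]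
          omega
        have hdisj : Disjoint (range e) (Finset.Ico e L) := by
          rw [Finset.disjoint_left]
          intro i hi hi2
          have := mem_range.mp hi
          have := (mem_Ico.mp hi2).1
          omega
        simp only [hv]
        rw [e1, Finset.sum_union hdisj]
        have p1 : ∑ i ∈ Finset.Ico e L, g i * h (r j + (i : ZMod n) * d) = G L - G e := by
          have e2 : G L - G e = ∑ i ∈ Finset.Ico e L, g i := by
            simp only [hG]
            rw [Finset.sum_Ico_eq_sub _ heL]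
          rw [e2]
          apply Finset.sum_congr rfl
          intro i hi
          have hi' := mem_Ico.mp hi
          have e5 : r j + (i : ZMod n) * d = a + ((i - e : ℕ) : ZMod n) * d := by
            simp only [hr]
            rw [he, Nat.cast_sub hi'.1]
            push_cast
            ring
          rw [e5, hrun _ (by omega), mul_one]
        have p2 : ∑ i ∈ range e, g i * h (r j + (i : ZMod n) * d) ≥ - G e := by
          simp only [hG]
          rw [← Finset.sum_neg_distrib]
          apply Finset.sum_le_sum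
          intro i hi
          exact hterm_lower i (by have := mem_range.mp hi; omega) _
        linarith
      have hval : ((G L - G e) - G e) * S = Real.cos (Real.pi * ((j : ℝ) - m) / L) := by
        have e4 : Real.pi * ((j : ℝ) - m) / L = - (2 * (e * A)) := by
          rw [hA, he]; push_cast; field_simp; ring
        have hG1 := hGS e
        rw [e4, Real.cos_neg, Real.cos_two_mul]
        have hG2 := hGL
        nlinarith [hG1, hG2, Real.sin_sq_add_cos_sq ((e : ℝ) * A)]
      rw [← hval]
      exact mul_le_mul_of_nonneg_right hsplit hSpos.le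
  -- cosines are nonnegative on the range of j
  have hcos : ∀ j < L, 0 ≤ Real.cos (Real.pi * ((j : ℝ) - m) / L) := by
    intro j hj
    apply Real.cos_nonneg_of_mem_Icc
    have hm1 : 2 * (m : ℝ) ≤ L - 1 := by
      have : 2 * m ≤ L - 1 := by omega
      have h2 : ((2 * m : ℕ) : ℝ) ≤ ((L - 1 : ℕ) : ℝ) := by exact_mod_cast this
      rw [Nat.cast_sub (by omega)] at h2
      push_cast at h2
      linarith
    have hm2 : (L : ℝ) - 2 ≤ 2 * m := by
      have : L ≤ 2 * m + 2 := by omega
      have h2 : ((L : ℕ) : ℝ) ≤ ((2 * m + 2 : ℕ) : ℝ) := by exact_mod_cast this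
      push_cast at h2
      linarith
    have hj1 : (j : ℝ) ≤ L - 1 := by
      have : ((j : ℝ) + 1) ≤ L := by exact_mod_cast hj
      linarith
    have hj0 : (0 : ℝ) ≤ j := by positivity
    have hm0 : (0 : ℝ) ≤ m := by positivity
    have hupper : (j : ℝ) - m ≤ L / 2 := by linarith
    have hlower : - ((L : ℝ) / 2) ≤ (j : ℝ) - m := by linarith
    have hpi := Real.pi_pos
    constructor
    · have : Real.pi * ((j : ℝ) - m) / L ≥ Real.pi * (-((L : ℝ) / 2)) / L := by
        apply div_le_div_of_nonneg_right _ hL0.le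
        exact mul_le_mul_of_nonneg_left hlower hpi.le
      have e : Real.pi * (-((L : ℝ) / 2)) / L = -(Real.pi / 2) := by
        field_simp
      linarith
    · have : Real.pi * ((j : ℝ) - m) / L ≤ Real.pi * ((L : ℝ) / 2) / L := by
        apply div_le_div_of_nonneg_right _ hL0.le
        exact mul_le_mul_of_nonneg_left hupper hpi.le
      have e : Real.pi * ((L : ℝ) / 2) / L = Real.pi / 2 := by
        field_simp
      linarith
  -- squares
  have hsq : ∀ j ∈ range L, Real.cos (Real.pi * ((j : ℝ) - m) / L) ^ 2 ≤ (v j) ^ 2 * S ^ 2 := by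
    intro j hj
    have hj' := mem_range.mp hj
    rw [← mul_pow]
    exact pow_le_pow_left₀ (hcos j hj') (hdmain j hj') 2
  have hsumcos : ∑ j ∈ range L, Real.cos (Real.pi * ((j : ℝ) - m) / L) ^ 2 = L / 2 := by
    rw [← sum_sin_sq (Real.pi / 2 - Real.pi * m / L) L hL]
    apply Finset.sum_congr rfl
    intro j _
    have e : Real.pi / 2 - Real.pi * m / L + Real.pi * j / L =
        Real.pi / 2 - (Real.pi * m / L - Real.pi * j / L) := by ring
    rw [e, Real.sin_pi_div_two_sub]
    have e2 : Real.pi * ((j : ℝ) - m) / L = -(Real.pi * m / L - Real.pi * j / L) := by ring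
    rw [e2, Real.cos_neg]
  have hsumg : ∑ i ∈ range L, g i ^ 2 = L / 2 := by
    rw [← sum_sin_sq A L hL]
    apply Finset.sum_congr rfl
    intro i _
    have e : (2 * (i : ℝ) + 1) * A = A + Real.pi * i / L := by
      have : Real.pi * (i : ℝ) / L = 2 * i * A := by
        rw [hA]; field_simp
      rw [this]; ring
    simp only [hg]
    rw [e]
  have hen := energy_weighted (h := h) (fun j => by rcases hh j with e | e <;> rw [e] <;> norm_num)
    hP d L hd g
  rw [hsumg] at hen
  have hinj := prog_inj (a - (m : ZMod n) * d) d L hd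
  have hI : Set.InjOn r (range L : Set ℕ) := by
    intro i hi j hj hij
    exact hinj i (mem_range.mp (mem_coe.mp hi)) j (mem_range.mp (mem_coe.mp hj)) hij
  have hrows : ∑ j ∈ range L, (v j) ^ 2 ≤ (n : ℝ) * (L / 2) := by
    rw [← hen]
    calc ∑ j ∈ range L, (v j) ^ 2
        = ∑ y ∈ (range L).image r, (∑ i ∈ range L, g i * h (y + (i : ZMod n) * d)) ^ 2 := by
          rw [sum_image hI]
      _ ≤ _ := sum_le_sum_of_subset_of_nonneg (subset_univ _) (fun _ _ _ => sq_nonneg _)
  have hfinal : (L : ℝ) / 2 ≤ (n : ℝ) * (L / 2) * S ^ 2 := by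
    calc (L : ℝ) / 2 = ∑ j ∈ range L, Real.cos (Real.pi * ((j : ℝ) - m) / L) ^ 2 := hsumcos.symm
      _ ≤ ∑ j ∈ range L, (v j) ^ 2 * S ^ 2 := sum_le_sum hsq
      _ = (∑ j ∈ range L, (v j) ^ 2) * S ^ 2 := by rw [Finset.sum_mul]
      _ ≤ _ := mul_le_mul_of_nonneg_right hrows (by positivity)
  have hLpos : (0 : ℝ) < L / 2 := by positivity
  have : (L / 2 : ℝ) * 1 ≤ (L / 2) * ((n : ℝ) * S ^ 2) := by nlinarith
  exact le_of_mul_le_mul_left this hLpos

/-- The sharp inequality and its corollary for an integer valued first row. -/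
theorem sine_run {h : ZMod n → ℤ} (hh : ∀ j, h j = 1 ∨ h j = -1)
    (hP : ∀ t : ZMod n, t ≠ 0 → ∑ j, h j * h (j + t) = 0) (a d : ZMod n) (L : ℕ) (hL : 1 ≤ L)
    (hd : ∀ i : ℕ, 0 < i → i < L → (i : ZMod n) * d ≠ 0)
    (hrun : ∀ i < L, h (a + (i : ZMod n) * d) = h a) :
    1 ≤ (n : ℝ) * Real.sin (Real.pi / (2 * L)) ^ 2 := by
  have hn : (1 : ℝ) ≤ n := by
    have : 1 ≤ n := Nat.pos_of_ne_zero (NeZero.ne n)
    exact_mod_cast this
  by_cases hL1 : L = 1
  · subst hL1
    have : Real.pi / (2 * ((1 : ℕ) : ℝ)) = Real.pi / 2 := by norm_num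
    rw [this, Real.sin_pi_div_two]
    simpa using hn
  have hL2 : 2 ≤ L := by omega
  set c : ℝ := ((h a : ℤ) : ℝ) with hc
  have hcc : c * c = 1 := by
    rcases hh a with e | e <;> simp [hc, e]
  set h' : ZMod n → ℝ := fun j => c * (h j : ℝ) with hh'
  have hh'1 : ∀ j, h' j = 1 ∨ h' j = -1 := by
    intro j
    rcases hh a with e | e <;> rcases hh j with f | f <;> simp [hh', hc, e, f]
  have hP' : ∀ t : ZMod n, t ≠ 0 → ∑ j, h' j * h' (j + t) = 0 := by
    intro t ht
    have : ∀ j, h' j * h' (j + t) = ((h j * h (j + t) : ℤ) : ℝ) := by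
      intro j
      simp only [hh']
      push_cast
      calc c * (h j : ℝ) * (c * (h (j + t) : ℝ)) = (c * c) * ((h j : ℝ) * (h (j + t) : ℝ)) := by ring
        _ = _ := by rw [hcc, one_mul]
    simp only [this]
    rw [← Int.cast_sum, hP t ht, Int.cast_zero]
  have hrun' : ∀ i < L, h' (a + (i : ZMod n) * d) = 1 := by
    intro i hi
    simp only [hh']
    rw [hrun i hi]
    exact hcc
  exact sine_run_core hh'1 hP' a d L hL2 hd hrun'

/-- Corollary: the length of a constant progression is at most `(π / 2) √n`. -/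
theorem sine_run_cor {h : ZMod n → ℤ} (hh : ∀ j, h j = 1 ∨ h j = -1)
    (hP : ∀ t : ZMod n, t ≠ 0 → ∑ j, h j * h (j + t) = 0) (a d : ZMod n) (L : ℕ)
    (hd : ∀ i : ℕ, 0 < i → i < L → (i : ZMod n) * d ≠ 0)
    (hrun : ∀ i < L, h (a + (i : ZMod n) * d) = h a) :
    4 * (L : ℝ) ^ 2 ≤ Real.pi ^ 2 * n := by
  by_cases hL : L = 0
  · subst hL
    simp
    positivity
  have hL1 : 1 ≤ L := by omega
  have h1 := sine_run hh hP a d L hL1 hd hrun
  have hLpos : (0 : ℝ) < L := by positivity
  have hx : 0 ≤ Real.pi / (2 * (L : ℝ)) := by positivity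
  have hs0 : 0 ≤ Real.sin (Real.pi / (2 * L)) := by
    apply Real.sin_nonneg_of_nonneg_of_le_pi hx
    have hone : (1 : ℝ) ≤ L := by exact_mod_cast hL1
    calc Real.pi / (2 * (L : ℝ)) ≤ Real.pi / 1 := by
          apply div_le_div_of_nonneg_left Real.pi_pos.le (by norm_num)
          linarith
      _ = Real.pi := by norm_num
  have hs1 : Real.sin (Real.pi / (2 * L)) ≤ Real.pi / (2 * L) := Real.sin_le hx
  have hn0 : (0 : ℝ) ≤ n := by positivity
  have h2 : 1 ≤ (n : ℝ) * (Real.pi / (2 * L)) ^ 2 := by
    refine le_trans h1 (mul_le_mul_of_nonneg_left ?_ hn0)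
    exact pow_le_pow_left₀ hs0 hs1 2
  have e : (n : ℝ) * (Real.pi / (2 * L)) ^ 2 = Real.pi ^ 2 * n / (4 * L ^ 2) := by
    field_simp
    ring
  rw [e, le_div_iff₀ (by positivity)] at h2
  linarith

end Vale.Agent.Lib.P033
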